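import Mathlib
import Vale.Agent.P079.Main

/-!
P079: the fixed point property for nonexpansive maps in reflexive spaces with an unconditional
basis of small suppression constant relative to averages of weakly null sequences; in particular
suppression constant one together with the weak Banach-Saks property.
-/

open Filter Topology

namespace Vale.Agent.Results.P079.AveragedSuppressionBases

theorem result : ∀ (X : Type) [NormedAddCommGroup X] [NormedSpace ℝ X] [CompleteSpace X],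
    Function.Surjective (NormedSpace.inclusionInDoubleDual ℝ X) →
    ∀ (ι : Type) (e : ι → X) (f : ι → StrongDual ℝ X) (c : ℝ), 0 ≤ c →
    (∀ x, HasSum (fun i => f i x • e i) x) →
    (∀ x (A : Finset ι), ‖∑ i ∈ A, f i x • e i‖ ≤ c * ‖x‖) →
    ((∀ a : ℕ → X, (∀ k, ‖a k‖ ≤ 1) → (∀ k l, ‖a k - a l‖ ≤ 1) →
        (∀ g : StrongDual ℝ X, Tendsto (fun k => g (a k)) atTop (𝓝 0)) →
        ∃ (n : ℕ) (θ : ℝ), 0 < n ∧ c * ((n : ℝ) - 1 + θ) < n ∧
          ∀ N, ∃ s : Finset ℕ, s.card = n ∧ (∀ k ∈ s, N ≤ k) ∧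
            ‖(n : ℝ)⁻¹ • ∑ k ∈ s, a k‖ ≤ θ) ∨
      (c = 1 ∧ ∀ a : ℕ → X, (∀ g : StrongDual ℝ X, Tendsto (fun k => g (a k)) atTop (𝓝 0)) →
        ∃ φ : ℕ → ℕ, StrictMono φ ∧
          Tendsto (fun m : ℕ => ‖(m : ℝ)⁻¹ • ∑ j ∈ Finset.range m, a (φ j)‖) atTop (𝓝 0))) →
    ∀ (C : Set X), C.Nonempty → IsClosed C → Convex ℝ C → Bornology.IsBounded C →
    ∀ T : X → X, Set.MapsTo T C C → (∀ a ∈ C, ∀ b ∈ C, ‖T a - T b‖ ≤ ‖a - b‖) →
      ∃ x ∈ C, T x = x := by
  intro X _ _ _ hsurj ι e f c hc hexp hsupp hcase C h1 h2 h3 h4 T h5 h6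
  rcases hcase with h | ⟨rfl, h⟩
  · exact Vale.Agent.P079.fixed_point hsurj e f hexp hc hsupp h h1 h2 h3 h4 T h5 h6
  · exact Vale.Agent.P079.fixed_point hsurj e f hexp hc hsupp
      (fun a _ _ ha => Vale.Agent.P079.averages_of_banachSaks h a ha) h1 h2 h3 h4 T h5 h6

end Vale.Agent.Results.P079.AveragedSuppressionBases
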